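import Vale.Agent.P196.Simple.Sft
import Vale.Agent.P196.Amen.FullGroup

/-!
# P196: assembly

The alternating full group of a macro-tile system with bands is infinite, simple and amenable;
with its finite presentation it answers Q1.
-/

namespace Vale.Agent.P196.Main

open Sft
open scoped symmDiff

/-- Amenability in the sense of the problem file. -/
def Folner (G : Type) [Group G] [DecidableEq G] : Prop :=
  ∀ K : Finset G, ∀ ε : ℝ, 0 < ε → ∃ D : Finset G, D.Nonempty ∧
    ∀ g ∈ K, (((D.image (g * ·)) ∆ D).card : ℝ) < ε * D.card

variable {S : MacroSystem} {m : ℕ}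

/-- The alternating full group of a system with bands is amenable. -/
theorem folner_altGroup (H : S.HasBands) [DecidableEq (Simple.altGroup Cell (S.Conf 0) m)] :
    Folner (Simple.altGroup Cell (S.Conf 0) m) :=
  Amen.folner_of_injective H (Subgroup.inclusion (S.altGroup_le_fullGroup m))
    (Subgroup.inclusion_injective _)

/-- A system with bands whose alternating full group is finitely presented answers Q1. -/
theorem exists_group (H : S.HasBands) (hm : 5 ≤ m)
    (hfp : Group.IsFinitelyPresented (Simple.altGroup Cell (S.Conf 0) m)) :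
    ∃ (G : Type) (_ : Group G) (_ : DecidableEq G), Infinite G ∧ IsSimpleGroup G ∧
      Group.IsFinitelyPresented G ∧ ∀ K : Finset G, ∀ ε : ℝ, 0 < ε → ∃ D : Finset G,
        D.Nonempty ∧ ∀ g ∈ K, (((D.image (g * ·)) ∆ D).card : ℝ) < ε * D.card := by
  classical
  obtain ⟨hs, hi⟩ := S.isSimpleGroup_and_infinite_altGroup hm
  exact ⟨Simple.altGroup Cell (S.Conf 0) m, inferInstance, inferInstance, hi, hs, hfp,
    folner_altGroup H⟩

end Vale.Agent.P196.Main
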