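import Vale.Agent.P196.W.System
import Vale.Agent.P196.W.SpanW
import Vale.Agent.P196.Fp.Presented

/-!
# P196: the layout in the assembly

The macro-tile system of the layout has bands and both span properties, so it answers Q1 as soon as
it is rigid.
-/

namespace Vale.Agent.P196.Main

open Sft
open scoped symmDiff

/-- The macro-tile system of the layout. It is not reducible, so that the instances of
`MacroSystem` apply to it. -/
noncomputable def system : MacroSystem := W.macroSystem

/-- The layout answers Q1, given rigidity. -/
theorem exists_group_layout (hR : system.Rigid) :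
    ∃ (G : Type) (_ : Group G) (_ : DecidableEq G), Infinite G ∧ IsSimpleGroup G ∧
      Group.IsFinitelyPresented G ∧ ∀ K : Finset G, ∀ ε : ℝ, 0 < ε → ∃ D : Finset G,
        D.Nonempty ∧ ∀ g ∈ K, (((D.image (g * ·)) ∆ D).card : ℝ) < ε * D.card :=
  exists_group (S := system) W.macroBands (m := 18) (by norm_num)
    (Pres.isFinitelyPresented_altGroup system hR
      (W.span0 (W.tabOK_tablesOf (W.allowOf W.layoutKind))
        (W.lanesOK_tablesOf (W.allowOf W.layoutKind)))
      (W.span1 (W.tabOK_tablesOf (W.allowOf W.layoutKind))
        (W.lanesOK_tablesOf (W.allowOf W.layoutKind)))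
      (le_refl 18))

end Vale.Agent.P196.Main
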